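import Vale.Agent.Lib.P042.Final

/-! # P042: `r_h(N) ≤ C N exp(-(log N)^c)` for every intersective `h` -/

namespace Vale.Agent.Results.P042.A_main

/-- MAIN THEOREM. For every `k ≥ 2` there is `c > 0` such that for every intersective `h` of degree `k`
with positive leading coefficient, `r_h(N) ≤ C N exp(-(log N)^c)`. -/
theorem result (k : ℕ) (hk : 2 ≤ k) : ∃ c : ℝ, 0 < c ∧ ∀ h : Polynomial ℤ, h.natDegree = k →
    0 < h.leadingCoeff → (∀ q : ℕ, 1 ≤ q → ∃ t : ℤ, (q : ℤ) ∣ h.eval t) →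
    ∃ C : ℝ, 0 < C ∧ ∀ (N : ℕ) (A : Finset ℕ), A ⊆ Finset.Icc 1 N →
      (∀ a ∈ A, ∀ b ∈ A, ∀ n : ℕ, 1 ≤ n → (a : ℤ) - b = h.eval (n : ℤ) → h.eval (n : ℤ) = 0) →
      (A.card : ℝ) ≤ C * N * Real.exp (-(Real.log N) ^ c) := by
  exact Vale.Agent.Lib.P042.final_main k hk

end Vale.Agent.Results.P042.A_main
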